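import Mathlib

/-! Symmetric random sign matrices. -/

namespace Vale.Agent.P160

/-- the symmetric sign matrix with one sign for each unordered pair of indices -/
def mat {n : ℕ} (ω : Sym2 (Fin n) → Bool) : Matrix (Fin n) (Fin n) ℝ :=
  Matrix.of fun i j => if ω s(i, j) then 1 else -1

open Classical in
/-- probability of an event under the uniform law of the signs -/
noncomputable def prob (n : ℕ) (E : Matrix (Fin n) (Fin n) ℝ → Prop) : ℝ :=
  ((Finset.univ.filter fun ω : Sym2 (Fin n) → Bool => E (mat ω)).card : ℝ) /
    Fintype.card (Sym2 (Fin n) → Bool)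

end Vale.Agent.P160
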