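import Vale.Agent.P160.Defs

namespace Vale.Agent.P160

open Matrix Finset Filter

variable {n : ℕ}

/-- the rows in `T` control the kernel vectors supported in `S` -/
def Ev (S T : Finset (Fin n)) (j : Fin n) (ω : Sym2 (Fin n) → Bool) : Prop :=
  j ∈ S ∧ (∃ v : Fin n → ℝ, (∀ i, i ∉ S → v i = 0) ∧ v j ≠ 0 ∧ mat ω *ᵥ v = 0) ∧
    ∀ u : Fin n → ℝ, (∀ i, i ∉ S → u i = 0) → (∀ t ∈ T, (mat ω *ᵥ u) t = 0) → mat ω *ᵥ u = 0

lemma ev_inj {S T : Finset (Fin n)} {j : Fin n} {ω ω' : Sym2 (Fin n) → Bool} (h : Ev S T j ω)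
    (h' : Ev S T j ω') (e : ∀ p, p ∉ (S ∪ T)ᶜ.image (fun i => s(i, j)) → ω p = ω' p) : ω = ω' := by
  obtain ⟨hj, ⟨v, v0, vj, hv⟩, -⟩ := h
  have key : ∀ i s, s ∈ S → (i ∈ T ∨ (i ∉ S ∧ s ≠ j)) → mat ω' i s = mat ω i s := by
    intro i s hs hi
    simp only [mat, Matrix.of_apply]
    rw [e]
    intro hm
    obtain ⟨i', hi', e2⟩ := mem_image.1 hm
    simp only [mem_compl, mem_union, not_or] at hi'
    rcases Sym2.eq_iff.1 e2 with ⟨rfl, rfl⟩ | ⟨rfl, rfl⟩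
    · rcases hi with h | h
      exacts [hi'.2 h, h.2 rfl]
    · exact hi'.1 hs
  have h1 : mat ω' *ᵥ v = 0 := h'.2.2 v v0 fun t ht => by
    rw [← show (mat ω *ᵥ v) t = 0 from congrFun hv t]
    show ∑ s, mat ω' t s * v s = ∑ s, mat ω t s * v s
    refine sum_congr rfl fun s _ => ?_
    by_cases hs : s ∈ S
    · rw [key t s hs (Or.inl ht)]
    · simp [v0 s hs]
  funext p
  by_cases hp : p ∈ (S ∪ T)ᶜ.image (fun i => s(i, j))
  · obtain ⟨i, hi, rfl⟩ := mem_image.1 hp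
    simp only [mem_compl, mem_union, not_or] at hi
    have h2 : ∑ s, (mat ω' i s - mat ω i s) * v s = 0 := by
      simp only [sub_mul, sum_sub_distrib]
      exact sub_eq_zero.2 ((congrFun h1 i).trans (congrFun hv i).symm)
    rw [sum_eq_single j (fun s _ hsj => by
      by_cases hs : s ∈ S
      · rw [key i s hs (Or.inr ⟨hi.1, hsj⟩), sub_self, zero_mul]
      · rw [v0 s hs, mul_zero]) (by simp)] at h2
    have h3 := sub_eq_zero.1 ((mul_eq_zero.1 h2).resolve_right vj)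
    simp only [mat, Matrix.of_apply] at h3
    cases h4 : ω s(i, j) <;> cases h5 : ω' s(i, j) <;> simp [h4, h5] at h3 ⊢ <;> norm_num at h3
  · exact e p hp

open Classical in
lemma ev_card {S T : Finset (Fin n)} {k : ℕ} (hS : S.card = k) (hT : T.card = k) (j : Fin n) :
    (univ.filter (Ev S T j)).card * 2 ^ n ≤ 4 ^ k * Fintype.card (Sym2 (Fin n) → Bool) := by
  obtain ⟨F, hF⟩ : ∃ F, F = (S ∪ T)ᶜ.image (fun i => s(i, j)) := ⟨_, rfl⟩
  have h1 : (univ.filter (Ev S T j)).card ≤ Fintype.card ({p // p ∉ F} → Bool) := by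
    rw [← card_univ]
    refine card_le_card_of_injOn (fun ω p => ω p.1) (fun _ _ => mem_univ _) fun ω h ω' h' e => ?_
    exact ev_inj (mem_filter.1 h).2 (mem_filter.1 h').2 fun p hp => congrFun e ⟨p, hF ▸ hp⟩
  have h2 : F.card = (S ∪ T)ᶜ.card := hF ▸ card_image_of_injective _ fun _ _ h =>
    Sym2.congr_left.1 h
  have h3 := card_union_le S T
  have h4 := card_add_card_compl (S ∪ T)
  have h5 := card_le_univ F
  rw [Fintype.card_fun, Fintype.card_bool, Fintype.card_subtype_compl, Fintype.card_coe] at h1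
  rw [Fintype.card_fin] at h4
  rw [Fintype.card_fun, Fintype.card_bool, show 4 = 2 ^ 2 by rfl, ← pow_mul, ← pow_add]
  refine (Nat.mul_le_mul_right _ h1).trans ?_
  rw [← pow_add]
  exact Nat.pow_le_pow_right (by norm_num) (by omega)

lemma ev_cover {k : ℕ} (hk : k ≤ n) (ω : Sym2 (Fin n) → Bool) {v : Fin n → ℝ} (h0 : v ≠ 0)
    (hv : mat ω *ᵥ v = 0) (hs : (univ.filter fun i => v i ≠ 0).card ≤ k) :
    ∃ S T : Finset (Fin n), S.card = k ∧ T.card = k ∧ ∃ j, Ev S T j ω := by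
  classical
  obtain ⟨S, s1, s2⟩ := exists_superset_card_eq hs (by simpa using hk)
  obtain ⟨j, hj⟩ := Function.ne_iff.1 h0
  let r : Fin n → S → ℝ := fun i s => mat ω i s
  obtain ⟨t, t1, t2, t3, -⟩ := Submodule.exists_finset_span_eq_linearIndepOn ℝ (Set.range r)
  obtain ⟨u, -, u2, u3⟩ := exists_subset_injOn_image_eq_of_surjOn (f := r) Set.univ t
    (by simpa [Set.SurjOn] using t1)
  have hc : u.card ≤ k := by
    rw [← card_image_of_injOn u2, u3, t2]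
    exact (Submodule.finrank_le _).trans (by simp [s2])
  obtain ⟨T, w1, w2⟩ := exists_superset_card_eq hc (by simpa using hk)
  have hv0 : ∀ i, i ∉ S → v i = 0 := fun i hi => by
    by_contra h
    exact hi (s1 (by simpa using h))
  refine ⟨S, T, s2, w2, j, s1 (by simpa using hj), ⟨v, hv0, hj, hv⟩, fun x x0 hx => ?_⟩
  have e : ∀ i, (mat ω *ᵥ x) i = r i ⬝ᵥ fun s : S => x s := fun i => by
    show ∑ s, mat ω i s * x s = ∑ s : S, mat ω i s * x s
    rw [sum_coe_sort S fun s => mat ω i s * x s]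
    exact (sum_subset (subset_univ S) fun s _ hs => by rw [x0 s hs, mul_zero]).symm
  funext i
  have hi : r i ∈ Submodule.span ℝ (t : Set (S → ℝ)) := t3 ▸ Submodule.subset_span ⟨i, rfl⟩
  rw [e, Pi.zero_apply]
  refine Submodule.span_induction (p := fun y _ => (y ⬝ᵥ fun s : S => x s) = 0)
    (fun y hy => ?_) (zero_dotProduct _) (fun a b _ _ ha hb => by rw [add_dotProduct, ha, hb, add_zero])
    (fun c a _ ha => by rw [smul_dotProduct, ha, smul_zero]) hi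
  rw [← u3] at hy
  obtain ⟨l, hl, rfl⟩ := mem_image.1 (mem_coe.1 hy)
  rw [← e]
  exact hx l (w1 hl)

theorem sparse_le {k : ℕ} (hk : k ≤ n) :
    prob n (fun A => ∃ v : Fin n → ℝ, v ≠ 0 ∧ A *ᵥ v = 0 ∧
      (univ.filter fun i => v i ≠ 0).card ≤ k) ≤ n * (n.choose k : ℝ) ^ 2 * 4 ^ k / 2 ^ n := by
  classical
  obtain ⟨N, hN⟩ : ∃ N, N = Fintype.card (Sym2 (Fin n) → Bool) := ⟨_, rfl⟩
  have N0 : (0 : ℝ) < N := by rw [hN]; exact_mod_cast Fintype.card_pos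
  let I := (powersetCard k (univ : Finset (Fin n)) ×ˢ powersetCard k (univ : Finset (Fin n))) ×ˢ
    (univ : Finset (Fin n))
  have h1 : (univ.filter fun ω : Sym2 (Fin n) → Bool => ∃ v : Fin n → ℝ, v ≠ 0 ∧
      mat ω *ᵥ v = 0 ∧ (univ.filter fun i => v i ≠ 0).card ≤ k) ⊆
      I.biUnion fun x => univ.filter (Ev x.1.1 x.1.2 x.2) := by
    intro ω hω
    obtain ⟨v, a1, a2, a3⟩ := (mem_filter.1 hω).2
    obtain ⟨S, T, b1, b2, j, b3⟩ := ev_cover hk ω a1 a2 a3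
    exact mem_biUnion.2 ⟨((S, T), j), by simp [I, mem_powersetCard, b1, b2], by simpa using b3⟩
  have h2 := Nat.mul_le_mul_right (2 ^ n) ((card_le_card h1).trans card_biUnion_le)
  rw [sum_mul] at h2
  have h3 := h2.trans (sum_le_card_nsmul I _ (4 ^ k * N) fun x hx => by
    simp only [I, mem_product, mem_powersetCard] at hx
    exact hN ▸ ev_card hx.1.1.2 hx.1.2.2 x.2)
  have h4 : I.card = n.choose k * n.choose k * n := by simp [I]
  rw [h4, smul_eq_mul] at h3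
  unfold prob
  rw [← hN, div_le_div_iff₀ N0 (by positivity)]
  have h5 := (Nat.cast_le (α := ℝ)).2 h3
  push_cast at h5
  refine le_trans (le_of_eq ?_) (h5.trans_eq (by ring))
  congr

theorem sparse_rate {ε : ℝ} (hε : 0 < ε) : ∃ δ : ℝ, 0 < δ ∧ ∀ᶠ n : ℕ in atTop,
    prob n (fun A => ∃ v : Fin n → ℝ, v ≠ 0 ∧ A *ᵥ v = 0 ∧
      ((univ.filter fun i => v i ≠ 0).card : ℝ) ≤ δ * n) ≤ (1 / 2 + ε) ^ n := by
  obtain ⟨x, x0, x1, x2⟩ : ∃ x : ℝ, 0 < x ∧ x ≤ 1 ∧ x ≤ ε / 8 :=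
    ⟨min 1 (ε / 8), by positivity, min_le_left _ _, min_le_right _ _⟩
  have y1 : 1 < 1 + x := by linarith
  obtain ⟨m, hm⟩ := pow_unbounded_of_one_lt ((2 / x) ^ 2) y1
  have m0 : (0 : ℝ) < m + 1 := by positivity
  refine ⟨1 / (m + 1), by positivity, ?_⟩
  have ht := (tendsto_pow_const_div_const_pow_of_one_lt 1 y1).eventually_lt_const zero_lt_one
  filter_upwards [ht] with n hn
  rw [pow_one, div_lt_one (by positivity)] at hn
  obtain ⟨k, hk⟩ : ∃ k, k = n / (m + 1) := ⟨_, rfl⟩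
  have k1 : (m + 1) * k ≤ n := hk ▸ Nat.mul_div_le n (m + 1)
  have k2 : k ≤ n := hk ▸ Nat.div_le_self _ _
  have e : (fun A : Matrix (Fin n) (Fin n) ℝ => ∃ v : Fin n → ℝ, v ≠ 0 ∧ A *ᵥ v = 0 ∧
      ((univ.filter fun i => v i ≠ 0).card : ℝ) ≤ 1 / (m + 1) * n) = fun A =>
      ∃ v : Fin n → ℝ, v ≠ 0 ∧ A *ᵥ v = 0 ∧ (univ.filter fun i => v i ≠ 0).card ≤ k := by
    funext A
    congr! 4
    rw [hk, Nat.le_div_iff_mul_le (Nat.succ_pos m), one_div_mul_eq_div, le_div_iff₀ m0]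
    norm_cast
  rw [e]
  refine (sparse_le k2).trans ?_
  have b1 : (n.choose k : ℝ) * x ^ k ≤ (1 + x) ^ n := by
    rw [add_comm, add_pow]
    have := single_le_sum (f := fun l => x ^ l * 1 ^ (n - l) * (n.choose l : ℝ))
      (fun l _ => by positivity) (mem_range.2 (Nat.lt_succ_of_le k2))
    simpa [mul_comm] using this
  have b2 : ((2 / x) ^ 2) ^ k ≤ (1 + x) ^ n := by
    refine (pow_le_pow_left₀ (by positivity) hm.le k).trans ?_
    rw [← pow_mul]
    exact pow_le_pow_right₀ y1.le (le_trans (Nat.mul_le_mul_right k (Nat.le_succ m)) k1)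
  have b3 : (n.choose k : ℝ) ^ 2 * 4 ^ k = ((n.choose k : ℝ) * x ^ k) ^ 2 * ((2 / x) ^ 2) ^ k := by
    rw [mul_pow, mul_assoc, ← pow_mul x, mul_comm k 2, pow_mul x, ← mul_pow]
    congr 2
    field_simp
    norm_num
  have b4 : n * ((n.choose k : ℝ) ^ 2 * 4 ^ k) ≤ (1 + x) ^ n * (((1 + x) ^ n) ^ 2 * (1 + x) ^ n) := by
    rw [b3]
    gcongr
  have b5 : (1 + x) ^ 4 / 2 ≤ 1 / 2 + ε := by
    have c2 : x ^ 2 ≤ x := pow_le_of_le_one x0.le x1 (by norm_num)
    have c3 : x ^ 3 ≤ x := pow_le_of_le_one x0.le x1 (by norm_num)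
    have c4 : x ^ 4 ≤ x := pow_le_of_le_one x0.le x1 (by norm_num)
    nlinarith
  refine le_trans ?_ (pow_le_pow_left₀ (by positivity) b5 n)
  rw [div_pow _ _ n, mul_assoc]
  refine div_le_div_of_nonneg_right (b4.trans_eq ?_) (by positivity)
  rw [← pow_mul (1 + x) 4 n, mul_comm 4 n, pow_mul]
  ring

end Vale.Agent.P160
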