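import Vale.Agent.P160.Main

namespace Vale.Agent.P160

open Matrix Finset Filter Module

variable {n : ℕ}

lemma lo {J : Type} [Fintype J] [DecidableEq J] (v : J → ℝ) (hv : ∀ j, v j ≠ 0) (c : ℝ) :
    (univ.filter fun a : J → Bool => ∑ j, (if a j then 1 else -1) * v j = c).card ≤
      (Fintype.card J).choose (Fintype.card J / 2) := by
  let U : (J → Bool) → Finset J := fun a => univ.filter fun j => a j = decide (0 < v j)
  have hU : Function.Injective U := fun a b h => by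
    funext j
    have : j ∈ U a ↔ j ∈ U b := by rw [h]
    simp only [U, mem_filter, mem_univ, true_and] at this
    cases h1 : a j <;> cases h2 : b j <;> cases h3 : decide (0 < v j) <;> simp_all
  have hs : ∀ a, ∑ j, (if a j then 1 else -1) * v j = 2 * ∑ j ∈ U a, |v j| - ∑ j, |v j| := by
    intro a
    rw [sum_filter, mul_sum, ← sum_sub_distrib]
    refine sum_congr rfl fun j _ => ?_
    rcases lt_or_gt_of_ne (hv j) with h | h
    · rw [abs_of_neg h]
      cases a j <;> simp [h.not_gt] <;> ring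
    · rw [abs_of_pos h]
      cases a j <;> simp [h] <;> ring
  rw [← card_image_of_injective _ hU]
  refine IsAntichain.sperner fun x hx y hy hne hxy => ?_
  obtain ⟨a, ha, rfl⟩ := mem_image.1 (mem_coe.1 hx)
  obtain ⟨b, hb, rfl⟩ := mem_image.1 (mem_coe.1 hy)
  have h1 := (mem_filter.1 ha).2
  have h2 := (mem_filter.1 hb).2
  rw [hs] at h1 h2
  obtain ⟨j, hj, hj'⟩ := exists_of_ssubset (ssubset_of_subset_of_ne hxy hne)
  have := sum_lt_sum_of_subset hxy hj hj' (abs_pos.2 (hv j)) fun l _ _ => abs_nonneg (v l)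
  linarith

/-- a kernel vector supported in `S`, nonzero on `J`, controlled by the rows in `T` -/
def Ev2 (S T J : Finset (Fin n)) (ω : Sym2 (Fin n) → Bool) : Prop :=
  J ⊆ S ∧ S ⊆ T ∧ (∃ v : Fin n → ℝ, (∀ i, i ∉ S → v i = 0) ∧ (∀ j ∈ J, v j ≠ 0) ∧ mat ω *ᵥ v = 0) ∧
    ∀ u : Fin n → ℝ, (∀ i, i ∉ S → u i = 0) → (∀ t ∈ T, (mat ω *ᵥ u) t = 0) → mat ω *ᵥ u = 0

lemma card_off (F : Finset (Sym2 (Fin n))) :
    Fintype.card ({p // p ∉ F} → Bool) * 2 ^ F.card = Fintype.card (Sym2 (Fin n) → Bool) := by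
  rw [Fintype.card_fun, Fintype.card_fun, Fintype.card_bool, Fintype.card_subtype_compl,
    Fintype.card_coe, ← pow_add, Nat.sub_add_cancel (card_le_univ F)]

open Classical in
lemma ev2_card (S T : Finset (Fin n)) {J : Finset (Fin n)} {q : ℕ} (hJ : J.card = 2 * q) :
    (univ.filter (Ev2 S T J)).card * (4 ^ q) ^ Tᶜ.card ≤
      q.centralBinom ^ Tᶜ.card * Fintype.card (Sym2 (Fin n) → Bool) := by
  by_cases h0 : J ⊆ S ∧ S ⊆ T
  swap
  · rw [filter_false_of_mem fun ω _ h => h0 ⟨h.1, h.2.1⟩]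
    simp
  obtain ⟨F, hF⟩ : ∃ F, F = (Tᶜ ×ˢ J).image (fun x => s(x.1, x.2)) := ⟨_, rfl⟩
  have mF : ∀ i s, s ∈ S → s(i, s) ∈ F → i ∉ T ∧ s ∈ J := fun i s hs hm => by
    rw [hF] at hm
    obtain ⟨x, hx, e⟩ := mem_image.1 hm
    simp only [mem_product, mem_compl] at hx
    rcases Sym2.eq_iff.1 e with ⟨rfl, rfl⟩ | ⟨rfl, rfl⟩
    · exact hx
    · exact absurd (h0.2 hs) hx.1
  have h2 : F.card = Tᶜ.card * (2 * q) := by
    rw [hF, card_image_of_injOn, card_product, hJ]
    rintro x hx y hy e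
    simp only [coe_product, Set.mem_prod, mem_coe, mem_compl] at hx hy
    rcases Sym2.eq_iff.1 e with ⟨e1, e2⟩ | ⟨e1, e2⟩
    · exact Prod.ext e1 e2
    · exact absurd (h0.2 (h0.1 (e1 ▸ hy.2))) hx.1
  let f : (Sym2 (Fin n) → Bool) → {p // p ∉ F} → Bool := fun ω p => ω p.1
  have h1 := card_le_mul_card_image (f := f) (univ.filter (Ev2 S T J)) (q.centralBinom ^ Tᶜ.card)
    fun a ha => by
      obtain ⟨ω0, hω0, rfl⟩ := mem_image.1 ha
      obtain ⟨-, -, ⟨v, v0, vJ, hv⟩, -⟩ := (mem_filter.1 hω0).2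
      let R : (Tᶜ : Finset (Fin n)) → Finset (J → Bool) := fun i => univ.filter fun a =>
        ∑ j : J, (if a j then 1 else -1) * v j = -∑ s ∈ Jᶜ, mat ω0 i s * v s
      have hR : (Fintype.piFinset R).card ≤ q.centralBinom ^ Tᶜ.card := by
        rw [Fintype.card_piFinset]
        refine (prod_le_pow_card _ _ q.centralBinom fun i _ => ?_).trans_eq (by simp)
        refine (lo (fun j : J => v j) (fun j => vJ j j.2) _).trans_eq ?_
        rw [Fintype.card_coe, hJ, Nat.mul_div_cancel_left q two_pos, Nat.centralBinom]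
      refine le_trans (card_le_card_of_injOn (fun ω i j => ω s(i.1, j.1)) ?_ ?_) hR
      · intro ω hω
        obtain ⟨hω, e⟩ := mem_filter.1 (mem_coe.1 hω)
        have key : ∀ i s, s(i, s) ∉ F → mat ω i s = mat ω0 i s := fun i s h => by
          simp only [mat, Matrix.of_apply]
          rw [show ω s(i, s) = ω0 s(i, s) from congrFun e ⟨_, h⟩]
        have h3 : mat ω *ᵥ v = 0 := (mem_filter.1 hω).2.2.2.2 v v0 fun t ht => by
          rw [← show (mat ω0 *ᵥ v) t = 0 from congrFun hv t]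
          show ∑ s, mat ω t s * v s = ∑ s, mat ω0 t s * v s
          refine sum_congr rfl fun s _ => ?_
          by_cases hs : s ∈ S
          · rw [key t s fun h => (mF t s hs h).1 ht]
          · simp [v0 s hs]
        refine mem_coe.2 (Fintype.mem_piFinset.2 fun i => mem_filter.2 ⟨mem_univ _, ?_⟩)
        have h4 : ∑ s, mat ω i s * v s = 0 := congrFun h3 i
        rw [← sum_add_sum_compl J, ← sum_coe_sort J] at h4
        refine (eq_neg_of_add_eq_zero_left h4).trans (congrArg _ (sum_congr rfl fun s hs => ?_))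
        by_cases hs' : s ∈ S
        · rw [key i s fun h => mem_compl.1 hs (mF i s hs' h).2]
        · simp [v0 s hs']
      · intro ω hω ω' hω' e
        have e1 := (mem_filter.1 (mem_coe.1 hω)).2.trans (mem_filter.1 (mem_coe.1 hω')).2.symm
        funext p
        by_cases hp : p ∈ F
        · rw [hF] at hp
          obtain ⟨x, hx, rfl⟩ := mem_image.1 hp
          exact congrFun (congrFun e ⟨x.1, (mem_product.1 hx).1⟩) ⟨x.2, (mem_product.1 hx).2⟩
        · exact congrFun e1 ⟨p, hp⟩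
  have h5 := h1.trans (Nat.mul_le_mul_left _ (card_le_univ _))
  rw [← card_off F, h2, ← mul_assoc, show 4 = 2 ^ 2 by rfl, ← pow_mul, ← pow_mul,
    ← mul_assoc 2 q, mul_comm (2 * q)]
  exact Nat.mul_le_mul_right _ h5

/-- the rows in `R` are combinations of the rows in `T` -/
def Bad (T R : Finset (Fin n)) (ω : Sym2 (Fin n) → Bool) : Prop :=
  Disjoint T R ∧ ∀ i ∈ R, ∃ c : Fin n → ℝ, ∀ s ∈ T ∪ R, mat ω i s = ∑ t ∈ T, c t * mat ω t s

lemma mat_symm (ω : Sym2 (Fin n) → Bool) (i j : Fin n) : mat ω i j = mat ω j i := by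
  simp only [mat, Matrix.of_apply, Sym2.eq_swap]

open Classical in
lemma bad_card (T R : Finset (Fin n)) : (univ.filter (Bad T R)).card * 2 ^ (R.card + 1).choose 2 ≤
    Fintype.card (Sym2 (Fin n) → Bool) := by
  rw [← card_off R.sym2, card_sym2]
  refine Nat.mul_le_mul_right _ ?_
  rw [← card_univ]
  refine card_le_card_of_injOn (fun ω p => ω p.1) (fun _ _ => mem_univ _) fun ω h ω' h' e => ?_
  obtain ⟨hd, h⟩ := (mem_filter.1 (mem_coe.1 h)).2
  obtain ⟨-, h'⟩ := (mem_filter.1 (mem_coe.1 h')).2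
  have key : ∀ t ∈ T, ∀ s, mat ω' t s = mat ω t s := fun t ht s => by
    simp only [mat, Matrix.of_apply]
    rw [show ω s(t, s) = ω' s(t, s) from congrFun e ⟨_, fun hm =>
      disjoint_left.1 hd ht (mk_mem_sym2_iff.1 hm).1⟩]
  funext p
  by_cases hp : p ∈ R.sym2
  swap
  · exact congrFun e ⟨p, hp⟩
  induction p using Sym2.ind with | _ i j
  obtain ⟨hi, hj⟩ := mk_mem_sym2_iff.1 hp
  obtain ⟨c, hc⟩ := h i hi
  obtain ⟨d, hd'⟩ := h' j hj
  have h3 : mat ω i j = mat ω' i j := by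
    rw [mat_symm ω' i j, hc j (mem_union_right _ hj), hd' i (mem_union_right _ hi)]
    have a1 : ∀ t ∈ T, c t * mat ω t j = ∑ u ∈ T, c t * (d u * mat ω u t) := fun t ht => by
      rw [← key t ht, mat_symm ω' t j, hd' t (mem_union_left _ ht), mul_sum]
      exact sum_congr rfl fun u hu => by rw [key u hu]
    have a2 : ∀ u ∈ T, d u * mat ω' u i = ∑ t ∈ T, c t * (d u * mat ω u t) := fun u hu => by
      rw [key u hu, mat_symm ω u i, hc u (mem_union_left _ hu), mul_sum]
      exact sum_congr rfl fun t _ => by rw [mat_symm ω t u]; ring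
    rw [sum_congr rfl a1, sum_congr rfl a2, sum_comm]
  simp only [mat, Matrix.of_apply] at h3
  cases h4 : ω s(i, j) <;> cases h5 : ω' s(i, j) <;> simp [h4, h5] at h3 ⊢ <;> norm_num at h3

lemma pick {V : Type} [AddCommGroup V] [Module ℝ V] [FiniteDimensional ℝ V] (f : Fin n → V)
    (s : Set (Fin n)) : ∃ u : Finset (Fin n), ↑u ⊆ s ∧
      u.card = finrank ℝ (Submodule.span ℝ (f '' s)) ∧
      Submodule.span ℝ (f '' u) = Submodule.span ℝ (f '' s) := by
  classical
  obtain ⟨t, t1, t2, t3, -⟩ := Submodule.exists_finset_span_eq_linearIndepOn ℝ (f '' s)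
  obtain ⟨u, u1, u2, u3⟩ := exists_subset_injOn_image_eq_of_surjOn (f := f) s t t1
  exact ⟨u, u1, by rw [← card_image_of_injOn u2, u3, t2], by rw [← coe_image, u3, t3]⟩

lemma cover (ω : Sym2 (Fin n) → Bool) (S : Finset (Fin n)) (r : ℕ) :
    (∃ T, S ⊆ T ∧ T.card ≤ S.card + r ∧ ∀ u : Fin n → ℝ, (∀ i, i ∉ S → u i = 0) →
      (∀ t ∈ T, (mat ω *ᵥ u) t = 0) → mat ω *ᵥ u = 0) ∨ ∃ T R, R.card = r ∧ Bad T R ω := by
  classical
  let f : Fin n → S → ℝ := fun i s => mat ω i s
  obtain ⟨T, t1, t2, t3⟩ := pick f S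
  have t1' : T ⊆ S := t1
  by_cases h : T.card + r ≤ S.card
  · obtain ⟨R, r1, r2⟩ := exists_subset_card_eq (s := S \ T) (n := r)
      (by rw [card_sdiff_of_subset t1']; omega)
    refine Or.inr ⟨T, R, r2, disjoint_of_subset_right r1 disjoint_sdiff, fun i hi => ?_⟩
    have h1 : f i ∈ Submodule.span ℝ (f '' T) :=
      t3 ▸ Submodule.subset_span ⟨i, (mem_sdiff.1 (r1 hi)).1, rfl⟩
    obtain ⟨c, hc⟩ := (Submodule.mem_span_image_finset_iff_exists_fun' ℝ).1 h1
    refine ⟨c, fun s hs => ?_⟩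
    have hs' : s ∈ S := (mem_union.1 hs).elim (fun h => t1' h) fun h => (mem_sdiff.1 (r1 h)).1
    have := congrFun hc ⟨s, hs'⟩
    simpa [f, Finset.sum_apply] using this.symm
  · obtain ⟨U, hU⟩ : ∃ U, U = Submodule.span ℝ (f '' S) := ⟨_, rfl⟩
    rw [← hU] at t2
    obtain ⟨T', -, w2, w3⟩ := pick (fun i => U.mkQ (f i)) Set.univ
    have h1 := Submodule.finrank_quotient_add_finrank U
    have h2 := Submodule.finrank_le (Submodule.span ℝ ((fun i => U.mkQ (f i)) '' Set.univ))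
    have h3 : finrank ℝ (S → ℝ) = S.card := by simp
    refine Or.inl ⟨S ∪ T', subset_union_left, (card_union_le _ _).trans (by omega),
      fun x x0 hx => ?_⟩
    let φ : (S → ℝ) →ₗ[ℝ] ℝ := Fintype.linearCombination ℝ fun s : S => x s
    have e : ∀ i, (mat ω *ᵥ x) i = φ (f i) := fun i => by
      show ∑ s, mat ω i s * x s = ∑ s : S, mat ω i s * x s
      rw [sum_coe_sort S fun s => mat ω i s * x s]
      exact (sum_subset (subset_univ S) fun s _ hs => by rw [x0 s hs, mul_zero]).symm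
    have h4 : U ≤ LinearMap.ker φ := by
      rw [hU, Submodule.span_le]
      rintro _ ⟨i, hi, rfl⟩
      exact (e i).symm.trans (hx i (mem_union_left _ hi))
    have h5 : Submodule.span ℝ ((fun i => U.mkQ (f i)) '' T') ≤ LinearMap.ker (U.liftQ φ h4) := by
      rw [Submodule.span_le]
      rintro _ ⟨i, hi, rfl⟩
      exact (e i).symm.trans (hx i (mem_union_right _ hi))
    funext i
    rw [e]
    have h6 : U.mkQ (f i) ∈ Submodule.span ℝ ((fun i => U.mkQ (f i)) '' T') := by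
      rw [w3]
      exact Submodule.subset_span ⟨i, trivial, rfl⟩
    exact h5 h6

lemma cb_sq (q : ℕ) : q.centralBinom ^ 2 * (2 * q + 1) ≤ 16 ^ q := by
  induction q with
  | zero => simp
  | succ q ih =>
    have h := Nat.succ_mul_centralBinom_succ q
    refine Nat.le_of_mul_le_mul_left (c := (q + 1) ^ 2) ?_ (by positivity)
    rw [← mul_assoc, ← mul_pow, h, pow_succ 16]
    have h2 : (2 * q + 1) * (2 * (q + 1) + 1) ≤ 4 * (q + 1) ^ 2 := by nlinarith
    calc (2 * (2 * q + 1) * q.centralBinom) ^ 2 * (2 * (q + 1) + 1)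
        = 4 * (q.centralBinom ^ 2 * (2 * q + 1)) * ((2 * q + 1) * (2 * (q + 1) + 1)) := by ring
      _ ≤ 4 * 16 ^ q * (4 * (q + 1) ^ 2) := by gcongr
      _ = _ := by ring

lemma cb_le (B : ℕ) : ∃ q : ℕ, 0 < q ∧ q.centralBinom * B ≤ 4 ^ q := by
  refine ⟨B ^ 2 + 1, by positivity, (Nat.pow_le_pow_iff_left (n := 2) two_ne_zero).1 ?_⟩
  rw [mul_pow, ← pow_mul 4, mul_comm _ 2, pow_mul]
  exact le_trans (Nat.mul_le_mul_left _ (by omega)) (cb_sq _)

theorem mid_le (n : ℕ) {M q : ℕ} (hq : q.centralBinom * 32 ^ M ≤ 4 ^ q) :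
    prob n (fun A => ∃ v : Fin n → ℝ, A *ᵥ v = 0 ∧ 2 * q ≤ (univ.filter fun i => v i ≠ 0).card ∧
      M * (univ.filter fun i => v i ≠ 0).card + 2 * n ≤ M * n) ≤
      (1 / 4) ^ n + 4 ^ n / 2 ^ (n / M + 1).choose 2 := by
  classical
  obtain ⟨N, hN⟩ : ∃ N, N = Fintype.card (Sym2 (Fin n) → Bool) := ⟨_, rfl⟩
  have N0 : (0 : ℝ) < N := by rw [hN]; exact_mod_cast Fintype.card_pos
  let I := (univ : Finset (Finset (Fin n) × Finset (Fin n) × Finset (Fin n))).filter
    fun x => x.2.2.card = 2 * q ∧ n ≤ M * x.2.1ᶜ.card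
  let I' := (univ : Finset (Finset (Fin n) × Finset (Fin n))).filter fun x => x.2.card = n / M
  have h1 : (univ.filter fun ω : Sym2 (Fin n) → Bool => ∃ v : Fin n → ℝ,
      mat ω *ᵥ v = 0 ∧ 2 * q ≤ (univ.filter fun i => v i ≠ 0).card ∧
      M * (univ.filter fun i => v i ≠ 0).card + 2 * n ≤ M * n) ⊆
      (I.biUnion fun x => univ.filter (Ev2 x.1 x.2.1 x.2.2)) ∪
        I'.biUnion fun x => univ.filter (Bad x.1 x.2) := by
    intro ω hω
    obtain ⟨v, a1, a2, a3⟩ := (mem_filter.1 hω).2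
    obtain ⟨J, j1, j2⟩ := exists_subset_card_eq a2
    rcases cover ω (univ.filter fun i => v i ≠ 0) (n / M) with ⟨T, t1, t2, t3⟩ | ⟨T, R, t1, t2⟩
    · refine mem_union_left _ (mem_biUnion.2 ⟨(_, T, J), mem_filter.2 ⟨mem_univ _, j2, ?_⟩,
        mem_filter.2 ⟨mem_univ _, j1, t1, ⟨v, fun i hi => by simpa using hi,
          fun j hj => (mem_filter.1 (j1 hj)).2, a1⟩, t3⟩⟩)
      have b1 := card_add_card_compl T
      have b2 := Nat.mul_div_le n M
      have b3 := Nat.mul_le_mul_left M t2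
      rw [Fintype.card_fin] at b1
      have b4 : M * n = M * T.card + M * Tᶜ.card := by rw [← mul_add, b1]
      rw [mul_add] at b3
      show n ≤ M * Tᶜ.card
      omega
    · exact mem_union_right _ (mem_biUnion.2 ⟨(T, R), mem_filter.2 ⟨mem_univ _, t1⟩,
        mem_filter.2 ⟨mem_univ _, t2⟩⟩)
  have c1 : (I.biUnion fun x => univ.filter (Ev2 x.1 x.2.1 x.2.2)).card * 32 ^ n ≤ 8 ^ n * N := by
    refine (Nat.mul_le_mul_right _ card_biUnion_le).trans ?_
    rw [sum_mul]
    refine (sum_le_card_nsmul I _ N fun x hx => ?_).trans (Nat.mul_le_mul_right _ ?_)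
    · obtain ⟨-, d1, d2⟩ := mem_filter.1 hx
      have d3 := ev2_card x.1 x.2.1 d1
      rw [← hN] at d3
      have d4 := (Nat.mul_le_mul_left _ (Nat.pow_le_pow_left hq _)).trans d3
      rw [mul_pow, ← pow_mul, mul_left_comm] at d4
      exact (Nat.mul_le_mul_left _ (Nat.pow_le_pow_right (by norm_num) d2)).trans
        (Nat.le_of_mul_le_mul_left d4 (pow_pos q.centralBinom_pos _))
    · refine (card_le_univ _).trans_eq ?_
      simp only [Fintype.card_prod, Fintype.card_finset, Fintype.card_fin, ← mul_pow]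
      norm_num
  have c2 : (I'.biUnion fun x => univ.filter (Bad x.1 x.2)).card * 2 ^ (n / M + 1).choose 2 ≤
      4 ^ n * N := by
    refine (Nat.mul_le_mul_right _ card_biUnion_le).trans ?_
    rw [sum_mul]
    refine (sum_le_card_nsmul I' _ N fun x hx => ?_).trans (Nat.mul_le_mul_right _ ?_)
    · have d3 := bad_card x.1 x.2
      rwa [← hN, (mem_filter.1 hx).2] at d3
    · refine (card_le_univ _).trans_eq ?_
      simp only [Fintype.card_prod, Fintype.card_finset, Fintype.card_fin, ← mul_pow]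
      norm_num
  have h2 := (Nat.cast_le (α := ℝ)).2 ((card_le_card h1).trans (card_union_le _ _))
  have c3 := (Nat.cast_le (α := ℝ)).2 c1
  have c4 := (Nat.cast_le (α := ℝ)).2 c2
  push_cast at h2 c3 c4
  rw [← le_div_iff₀ (by positivity)] at c3 c4
  have e : (8 : ℝ) ^ n * N / 32 ^ n = (1 / 4) ^ n * N := by
    rw [mul_div_right_comm, ← div_pow]
    norm_num
  unfold prob
  rw [← hN, div_le_iff₀ N0, add_mul, ← e, ← mul_div_right_comm]
  refine le_trans (le_of_eq ?_) (h2.trans (add_le_add c3 c4))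
  congr

lemma prob_or {E E1 E2 : Matrix (Fin n) (Fin n) ℝ → Prop} (h : ∀ A, E A → E1 A ∨ E2 A) :
    prob n E ≤ prob n E1 + prob n E2 := by
  classical
  unfold prob
  rw [← add_div]
  refine div_le_div_of_nonneg_right ?_ (by positivity)
  norm_cast
  refine le_trans (card_le_card fun ω hω => ?_) (card_union_le _ _)
  simp only [mem_union, mem_filter, mem_univ, true_and] at hω ⊢
  exact h _ hω

theorem full_rate {ε η : ℝ} (hε : 0 < ε) (hη : 0 < η) : ∀ᶠ n : ℕ in atTop,
    prob n (fun A => ∃ v : Fin n → ℝ, v ≠ 0 ∧ A *ᵥ v = 0 ∧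
      ((univ.filter fun i => v i ≠ 0).card : ℝ) ≤ (1 - η) * n) ≤ (1 / 2 + ε) ^ n := by
  obtain ⟨δ, δ0, h1⟩ := sparse_rate (half_pos hε)
  obtain ⟨M, hM⟩ := exists_nat_gt (2 / η)
  have M0 : 0 < M := by exact_mod_cast (show (0 : ℝ) < 2 / η by positivity).trans hM
  rw [div_lt_iff₀ hη] at hM
  obtain ⟨q, -, hq⟩ := cb_le (32 ^ M)
  have p0 : 0 < 1 / 2 + ε / 2 := by positivity
  have h2 := (tendsto_pow_atTop_atTop_of_one_lt
    (show 1 < (1 / 2 + ε) / (1 / 2 + ε / 2) by rw [one_lt_div p0]; linarith)).eventually_ge_atTop 3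
  have h3 := (tendsto_natCast_atTop_atTop.const_mul_atTop δ0).eventually_ge_atTop (2 * q : ℝ)
  filter_upwards [h1, h2, h3, eventually_ge_atTop (M * (8 * M))] with n a1 a2 a3 a4
  have b1 : 4 * n ≤ (n / M + 1).choose 2 := by
    have c1 : 8 * M ≤ n / M := (Nat.le_div_iff_mul_le M0).2 (by rwa [mul_comm])
    have c2 := Nat.lt_mul_div_succ n M0
    rw [Nat.choose_two_right, Nat.le_div_iff_mul_le two_pos, Nat.add_sub_cancel]
    nlinarith
  have b2 : (4 : ℝ) ^ n / 2 ^ (n / M + 1).choose 2 ≤ (1 / 4) ^ n := by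
    refine (div_le_div_of_nonneg_left (by positivity) (by positivity)
      (pow_le_pow_right₀ one_le_two b1)).trans_eq ?_
    rw [pow_mul, ← div_pow]
    norm_num
  have b3 : (1 / 4 : ℝ) ^ n ≤ (1 / 2 + ε / 2) ^ n :=
    pow_le_pow_left₀ (by norm_num) (by linarith) n
  rw [div_pow, le_div_iff₀ (by positivity)] at a2
  refine (prob_or fun A => ?_).trans ((add_le_add a1 (mid_le n hq)).trans (by linarith))
  rintro ⟨v, v1, v2, v3⟩
  rcases le_total ((univ.filter fun i => v i ≠ 0).card : ℝ) (δ * n) with h | h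
  · exact Or.inl ⟨v, v1, v2, h⟩
  · refine Or.inr ⟨v, v2, by exact_mod_cast a3.trans h, ?_⟩
    have d1 := mul_le_mul_of_nonneg_left v3 (Nat.cast_nonneg (α := ℝ) M)
    have d2 := mul_le_mul_of_nonneg_right hM.le (Nat.cast_nonneg (α := ℝ) n)
    have d3 : (M : ℝ) * (univ.filter fun i => v i ≠ 0).card + 2 * n ≤ M * n := by nlinarith
    exact_mod_cast d3

end Vale.Agent.P160
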