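import Vale.Agent.P160.Mid

namespace Vale.Agent.P160

open Matrix Finset Filter Module

variable {n : ℕ}

/-- a kernel vector in `W`, nonzero on `J`, controlled by the rows in `T` -/
def Ev3 (W : (Fin n → ℝ) → Prop) (T J : Finset (Fin n)) (ω : Sym2 (Fin n) → Bool) : Prop :=
  (∃ v, W v ∧ (∀ j ∈ J, v j ≠ 0) ∧ mat ω *ᵥ v = 0) ∧
    ∀ u, W u → (∀ t ∈ T, (mat ω *ᵥ u) t = 0) → mat ω *ᵥ u = 0

open Classical in
lemma ev3_card (W : (Fin n → ℝ) → Prop) {T J : Finset (Fin n)} (h0 : Disjoint T J) {q : ℕ}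
    (hJ : J.card = 2 * q) : (univ.filter (Ev3 W T J)).card * (4 ^ q) ^ (T ∪ J)ᶜ.card ≤
      q.centralBinom ^ (T ∪ J)ᶜ.card * Fintype.card (Sym2 (Fin n) → Bool) := by
  obtain ⟨U, hU⟩ : ∃ U, U = (T ∪ J)ᶜ := ⟨_, rfl⟩
  rw [← hU]
  have mU : ∀ i ∈ U, i ∉ T ∧ i ∉ J := fun i hi => by simpa [hU, not_or] using hi
  obtain ⟨F, hF⟩ : ∃ F, F = (U ×ˢ J).image (fun x => s(x.1, x.2)) := ⟨_, rfl⟩
  have mF : ∀ i s, i ∉ J → s(i, s) ∈ F → i ∉ T ∧ s ∈ J := fun i s hs hm => by
    rw [hF] at hm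
    obtain ⟨x, hx, e⟩ := mem_image.1 hm
    rw [mem_product] at hx
    rcases Sym2.eq_iff.1 e with ⟨rfl, rfl⟩ | ⟨rfl, rfl⟩
    · exact ⟨(mU _ hx.1).1, hx.2⟩
    · exact absurd hx.2 hs
  have h2 : F.card = U.card * (2 * q) := by
    rw [hF, card_image_of_injOn, card_product, hJ]
    rintro x hx y hy e
    simp only [coe_product, Set.mem_prod, mem_coe] at hx hy
    rcases Sym2.eq_iff.1 e with ⟨e1, e2⟩ | ⟨e1, e2⟩
    · exact Prod.ext e1 e2
    · exact absurd (e1 ▸ hy.2) (mU _ hx.1).2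
  let f : (Sym2 (Fin n) → Bool) → {p // p ∉ F} → Bool := fun ω p => ω p.1
  have h1 := card_le_mul_card_image (f := f) (univ.filter (Ev3 W T J)) (q.centralBinom ^ U.card)
    fun a ha => by
      obtain ⟨ω0, hω0, rfl⟩ := mem_image.1 ha
      obtain ⟨⟨v, v0, vJ, hv⟩, -⟩ := (mem_filter.1 hω0).2
      let R : U → Finset (J → Bool) := fun i => univ.filter fun a =>
        ∑ j : J, (if a j then 1 else -1) * v j = -∑ s ∈ Jᶜ, mat ω0 i s * v s
      have hR : (Fintype.piFinset R).card ≤ q.centralBinom ^ U.card := by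
        rw [Fintype.card_piFinset]
        refine (prod_le_pow_card _ _ q.centralBinom fun i _ => ?_).trans_eq (by simp)
        refine (lo (fun j : J => v j) (fun j => vJ j j.2) _).trans_eq ?_
        rw [Fintype.card_coe, hJ, Nat.mul_div_cancel_left q two_pos, Nat.centralBinom]
      refine le_trans (card_le_card_of_injOn (fun ω i j => ω s(i.1, j.1)) ?_ ?_) hR
      · intro ω hω
        obtain ⟨hω, e⟩ := mem_filter.1 (mem_coe.1 hω)
        have key : ∀ i s, s(i, s) ∉ F → mat ω i s = mat ω0 i s := fun i s h => by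
          simp only [mat, Matrix.of_apply]
          rw [show ω s(i, s) = ω0 s(i, s) from congrFun e ⟨_, h⟩]
        have h3 : mat ω *ᵥ v = 0 := (mem_filter.1 hω).2.2 v v0 fun t ht => by
          rw [← show (mat ω0 *ᵥ v) t = 0 from congrFun hv t]
          show ∑ s, mat ω t s * v s = ∑ s, mat ω0 t s * v s
          refine sum_congr rfl fun s _ => ?_
          rw [key t s fun h => (mF t s (disjoint_left.1 h0 ht) h).1 ht]
        refine mem_coe.2 (Fintype.mem_piFinset.2 fun i => mem_filter.2 ⟨mem_univ _, ?_⟩)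
        have h4 : ∑ s, mat ω i s * v s = 0 := congrFun h3 i
        rw [← sum_add_sum_compl J, ← sum_coe_sort J] at h4
        refine (eq_neg_of_add_eq_zero_left h4).trans (congrArg _ (sum_congr rfl fun s hs => ?_))
        rw [key i s fun h => mem_compl.1 hs (mF i s (mU _ i.2).2 h).2]
      · intro ω hω ω' hω' e
        have e1 := (mem_filter.1 (mem_coe.1 hω)).2.trans (mem_filter.1 (mem_coe.1 hω')).2.symm
        funext p
        by_cases hp : p ∈ F
        · rw [hF] at hp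
          obtain ⟨x, hx, rfl⟩ := mem_image.1 hp
          exact congrFun (congrFun e ⟨x.1, (mem_product.1 hx).1⟩) ⟨x.2, (mem_product.1 hx).2⟩
        · exact congrFun e1 ⟨p, hp⟩
  have h5 := h1.trans (Nat.mul_le_mul_left _ (card_le_univ _))
  rw [← card_off F, h2, ← mul_assoc, show 4 = 2 ^ 2 by rfl, ← pow_mul, ← pow_mul,
    ← mul_assoc 2 q, mul_comm (2 * q)]
  exact Nat.mul_le_mul_right _ h5

/-- constant up to the signs given by `P` outside `S` -/
def WW (S P : Finset (Fin n)) (u : Fin n → ℝ) : Prop :=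
  ∃ c : ℝ, ∀ i, i ∉ S → u i = (if i ∈ P then 1 else -1) * c

lemma cover2 (A : Matrix (Fin n) (Fin n) ℝ) (S P T : Finset (Fin n))
    (h : ∀ u : Fin n → ℝ, (∀ i, i ∉ S → u i = 0) → (∀ t ∈ T, (A *ᵥ u) t = 0) → A *ᵥ u = 0) :
    ∃ T', T ⊆ T' ∧ T'.card ≤ T.card + 1 ∧
      ∀ u, WW S P u → (∀ t ∈ T', (A *ᵥ u) t = 0) → A *ᵥ u = 0 := by
  by_cases h1 : ∀ u, WW S P u → (∀ t ∈ T, (A *ᵥ u) t = 0) → A *ᵥ u = 0
  · exact ⟨T, subset_rfl, Nat.le_succ _, h1⟩
  push Not at h1
  obtain ⟨u0, ⟨c0, a1⟩, a2, a3⟩ := h1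
  obtain ⟨i0, hi⟩ := Function.ne_iff.1 a3
  refine ⟨insert i0 T, subset_insert _ _, card_insert_le _ _, ?_⟩
  rintro u ⟨c, b1⟩ b2
  have h2 := h (c0 • u - c • u0) (fun i hi => by simp [a1 i hi, b1 i hi]; split_ifs <;> ring)
    fun t ht => by simp [mulVec_sub, mulVec_smul, a2 t ht, b2 t (mem_insert_of_mem ht)]
  have h3 := congrFun h2 i0
  simp only [mulVec_sub, mulVec_smul, Pi.sub_apply, Pi.smul_apply, smul_eq_mul,
    b2 i0 (mem_insert_self _ _), mul_zero, zero_sub, Pi.zero_apply, neg_eq_zero] at h3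
  have h4 : c = 0 := (mul_eq_zero.1 h3).resolve_right hi
  exact h u (fun i hi => by rw [b1 i hi, h4, mul_zero]) fun t ht => b2 t (mem_insert_of_mem ht)

theorem rep_le (n : ℕ) {M q : ℕ} (hq : q.centralBinom * 64 ^ M ≤ 4 ^ q) (M0 : 0 < M)
    (hn : M * (2 * q + 1) ≤ n) :
    prob n (fun A => ∃ v : Fin n → ℝ, A *ᵥ v = 0 ∧ ∃ c : ℝ, c ≠ 0 ∧
      3 * n ≤ M * (univ.filter fun i => |v i| = c).card) ≤
      (1 / 4) ^ n + 4 ^ n / 2 ^ (n / M + 1).choose 2 := by
  classical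
  obtain ⟨N, hN⟩ : ∃ N, N = Fintype.card (Sym2 (Fin n) → Bool) := ⟨_, rfl⟩
  have N0 : (0 : ℝ) < N := by rw [hN]; exact_mod_cast Fintype.card_pos
  let I := (univ : Finset ((Finset (Fin n) × Finset (Fin n)) × Finset (Fin n) × Finset (Fin n))).filter
    fun x => Disjoint x.2.1 x.2.2 ∧ x.2.2.card = 2 * q ∧ n ≤ M * (x.2.1 ∪ x.2.2)ᶜ.card
  let I' := (univ : Finset (Finset (Fin n) × Finset (Fin n))).filter fun x => x.2.card = n / M
  have h1 : (univ.filter fun ω : Sym2 (Fin n) → Bool => ∃ v : Fin n → ℝ,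
      mat ω *ᵥ v = 0 ∧ ∃ c : ℝ, c ≠ 0 ∧ 3 * n ≤ M * (univ.filter fun i => |v i| = c).card) ⊆
      (I.biUnion fun x => univ.filter (Ev3 (WW x.1.1 x.1.2) x.2.1 x.2.2)) ∪
        I'.biUnion fun x => univ.filter (Bad x.1 x.2) := by
    intro ω hω
    obtain ⟨v, a1, c, a2, a3⟩ := (mem_filter.1 hω).2
    obtain ⟨B, hB⟩ : ∃ B, B = univ.filter fun i => |v i| = c := ⟨_, rfl⟩
    rw [← hB] at a3
    have mB : ∀ i, i ∉ Bᶜ → |v i| = c := fun i hi => by simpa [hB] using hi
    rcases cover ω Bᶜ (n / M) with ⟨T0, t1, t2, t3⟩ | ⟨T, R, t1, t2⟩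
    · obtain ⟨T, s1, s2, s3⟩ := cover2 (mat ω) Bᶜ (univ.filter fun i => 0 ≤ v i) T0 t3
      have b1 := card_add_card_compl T
      have b0 := card_add_card_compl B
      have b2 := Nat.mul_div_le n M
      rw [Fintype.card_fin] at b1 b0
      have b3 : B.card ≤ Tᶜ.card + n / M + 1 := by omega
      have b4 := Nat.mul_le_mul_left M b3
      rw [mul_add, mul_add] at b4
      rw [mul_add] at hn
      have b5 : 2 * q ≤ Tᶜ.card := Nat.le_of_mul_le_mul_left (by omega) M0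
      obtain ⟨J, j1, j2⟩ := exists_subset_card_eq b5
      have j3 : Disjoint T J := disjoint_of_subset_right j1 disjoint_compl_right
      have b6 := card_add_card_compl (T ∪ J)
      rw [card_union_of_disjoint j3, Fintype.card_fin, j2] at b6
      have b7 : M * Tᶜ.card = M * (T ∪ J)ᶜ.card + M * (2 * q) := by
        rw [← mul_add]
        congr 1
        omega
      refine mem_union_left _ (mem_biUnion.2 ⟨((Bᶜ, univ.filter fun i => 0 ≤ v i), T, J),
        mem_filter.2 ⟨mem_univ _, j3, j2, show n ≤ M * (T ∪ J)ᶜ.card by omega⟩,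
        mem_filter.2 ⟨mem_univ _, ⟨v, ⟨c, fun i hi => ?_⟩, fun j hj h => ?_, a1⟩, s3⟩⟩)
      · rw [← mB i hi]
        by_cases h : 0 ≤ v i
        · simp [h, abs_of_nonneg h]
        · simp [h, abs_of_neg (not_le.1 h)]
      · have := mB j fun h' => mem_compl.1 (j1 hj) (s1 (t1 h'))
        rw [h, abs_zero] at this
        exact a2 this.symm
    · exact mem_union_right _ (mem_biUnion.2 ⟨(T, R), mem_filter.2 ⟨mem_univ _, t1⟩,
        mem_filter.2 ⟨mem_univ _, t2⟩⟩)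
  have c1 : (I.biUnion fun x => univ.filter (Ev3 (WW x.1.1 x.1.2) x.2.1 x.2.2)).card * 64 ^ n ≤
      16 ^ n * N := by
    refine (Nat.mul_le_mul_right _ card_biUnion_le).trans ?_
    rw [sum_mul]
    refine (sum_le_card_nsmul I _ N fun x hx => ?_).trans (Nat.mul_le_mul_right _ ?_)
    · obtain ⟨-, d0, d1, d2⟩ := mem_filter.1 hx
      have d3 := ev3_card (WW x.1.1 x.1.2) d0 d1
      rw [← hN] at d3
      have d4 := (Nat.mul_le_mul_left _ (Nat.pow_le_pow_left hq _)).trans d3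
      rw [mul_pow, ← pow_mul, mul_left_comm] at d4
      exact (Nat.mul_le_mul_left _ (Nat.pow_le_pow_right (by norm_num) d2)).trans
        (Nat.le_of_mul_le_mul_left d4 (pow_pos q.centralBinom_pos _))
    · refine (card_le_univ _).trans_eq ?_
      simp only [Fintype.card_prod, Fintype.card_finset, Fintype.card_fin, ← mul_pow]
      norm_num
  have c2 : (I'.biUnion fun x => univ.filter (Bad x.1 x.2)).card * 2 ^ (n / M + 1).choose 2 ≤
      4 ^ n * N := by
    refine (Nat.mul_le_mul_right _ card_biUnion_le).trans ?_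
    rw [sum_mul]
    refine (sum_le_card_nsmul I' _ N fun x hx => ?_).trans (Nat.mul_le_mul_right _ ?_)
    · have d3 := bad_card x.1 x.2
      rwa [← hN, (mem_filter.1 hx).2] at d3
    · refine (card_le_univ _).trans_eq ?_
      simp only [Fintype.card_prod, Fintype.card_finset, Fintype.card_fin, ← mul_pow]
      norm_num
  have h2 := (Nat.cast_le (α := ℝ)).2 ((card_le_card h1).trans (card_union_le _ _))
  have c3 := (Nat.cast_le (α := ℝ)).2 c1
  have c4 := (Nat.cast_le (α := ℝ)).2 c2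
  push_cast at h2 c3 c4
  rw [← le_div_iff₀ (by positivity)] at c3 c4
  have e : (16 : ℝ) ^ n * N / 64 ^ n = (1 / 4) ^ n * N := by
    rw [mul_div_right_comm, ← div_pow]
    norm_num
  unfold prob
  rw [← hN, div_le_iff₀ N0, add_mul, ← e, ← mul_div_right_comm]
  refine le_trans (le_of_eq ?_) (h2.trans (add_le_add c3 c4))
  congr

theorem rep_rate {ε η : ℝ} (hε : 0 < ε) (hη : 0 < η) : ∀ᶠ n : ℕ in atTop,
    prob n (fun A => ∃ v : Fin n → ℝ, v ≠ 0 ∧ A *ᵥ v = 0 ∧ ∃ c : ℝ,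
      η * n ≤ ((univ.filter fun i => |v i| = c).card : ℝ)) ≤ (1 / 2 + ε) ^ n := by
  have h1 := full_rate (half_pos hε) hη
  obtain ⟨M, hM⟩ := exists_nat_gt (3 / η)
  have M0 : 0 < M := by exact_mod_cast (show (0 : ℝ) < 3 / η by positivity).trans hM
  rw [div_lt_iff₀ hη] at hM
  obtain ⟨q, -, hq⟩ := cb_le (64 ^ M)
  have p0 : 0 < 1 / 2 + ε / 2 := by positivity
  have h2 := (tendsto_pow_atTop_atTop_of_one_lt
    (show 1 < (1 / 2 + ε) / (1 / 2 + ε / 2) by rw [one_lt_div p0]; linarith)).eventually_ge_atTop 3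
  filter_upwards [h1, h2, eventually_ge_atTop (M * (2 * q + 1)),
    eventually_ge_atTop (M * (8 * M))] with n a1 a2 a3 a4
  have b1 : 4 * n ≤ (n / M + 1).choose 2 := by
    have c1 : 8 * M ≤ n / M := (Nat.le_div_iff_mul_le M0).2 (by rwa [mul_comm])
    have c2 := Nat.lt_mul_div_succ n M0
    rw [Nat.choose_two_right, Nat.le_div_iff_mul_le two_pos, Nat.add_sub_cancel]
    nlinarith
  have b2 : (4 : ℝ) ^ n / 2 ^ (n / M + 1).choose 2 ≤ (1 / 4) ^ n := by
    refine (div_le_div_of_nonneg_left (by positivity) (by positivity)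
      (pow_le_pow_right₀ one_le_two b1)).trans_eq ?_
    rw [pow_mul, ← div_pow]
    norm_num
  have b3 : (1 / 4 : ℝ) ^ n ≤ (1 / 2 + ε / 2) ^ n :=
    pow_le_pow_left₀ (by norm_num) (by linarith) n
  rw [div_pow, le_div_iff₀ (by positivity)] at a2
  refine (prob_or fun A => ?_).trans ((add_le_add a1 (rep_le n hq M0 a3)).trans (by linarith))
  rintro ⟨v, v1, v2, c, v3⟩
  by_cases hc : c = 0
  · refine Or.inl ⟨v, v1, v2, ?_⟩
    have d1 := card_filter_add_card_filter_not (s := (univ : Finset (Fin n))) fun i => v i = 0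
    rw [card_univ, Fintype.card_fin] at d1
    have d2 := congrArg (Nat.cast (R := ℝ)) d1
    simp only [hc, abs_eq_zero] at v3
    push_cast at d2
    linarith
  · refine Or.inr ⟨v, v2, c, hc, ?_⟩
    have d1 := mul_le_mul_of_nonneg_left v3 (Nat.cast_nonneg (α := ℝ) M)
    have d2 := mul_le_mul_of_nonneg_right hM.le (Nat.cast_nonneg (α := ℝ) n)
    have d3 : 3 * (n : ℝ) ≤ M * (univ.filter fun i => |v i| = c).card := by nlinarith
    exact_mod_cast d3

end Vale.Agent.P160
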